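import Vale.Agent.P148.KPoint2

/-!
# P148, module PG, part 1: counts of the points of a Poisson process over plane sets

`num S A` is the number of points of the configuration over `A ⊆ ℂ` (both colours).
All bounds are explicit and uniform in the intensity.
-/

open MeasureTheory Set Metric Topology Filter ProbabilityTheory
open scoped ENNReal NNReal Nat

namespace P148
namespace PG

/-! ### moments of the Poisson law -/

theorem lintegral_poisson (r : ℝ≥0) (f : ℕ → ℝ≥0∞) :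
    ∫⁻ n, f n ∂(poissonMeasure r) =
      ∑' n : ℕ, ENNReal.ofReal (Real.exp (-r) * (r : ℝ) ^ n / (n)!) * f n := by
  rw [poissonMeasure, lintegral_sum_measure]
  refine tsum_congr fun n => ?_
  rw [lintegral_smul_measure, lintegral_dirac, smul_eq_mul]

/-- `E[N g(N)] = r E[g(N+1)]`. -/
theorem lintegral_poisson_mul (r : ℝ≥0) (g : ℕ → ℝ≥0∞) :
    ∫⁻ n, (n : ℝ≥0∞) * g n ∂(poissonMeasure r) = r * ∫⁻ n, g (n + 1) ∂(poissonMeasure r) := by
  rw [lintegral_poisson, lintegral_poisson, tsum_eq_zero_add' ENNReal.summable]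
  simp only [Nat.cast_zero, zero_mul, mul_zero, zero_add]
  rw [← ENNReal.tsum_mul_left]
  refine tsum_congr fun n => ?_
  have h1 : Real.exp (-r) * (r : ℝ) ^ (n + 1) / ((n + 1)! : ℕ) * ((n : ℝ) + 1) =
      (r : ℝ) * (Real.exp (-r) * (r : ℝ) ^ n / (n ! : ℕ)) := by
    rw [Nat.factorial_succ]
    push_cast
    have : ((n : ℝ) + 1) ≠ 0 := by positivity
    field_simp
    ring
  have h2 : ((n + 1 : ℕ) : ℝ≥0∞) = ENNReal.ofReal ((n : ℝ) + 1) := by
    rw [← ENNReal.ofReal_natCast]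
    push_cast
    rfl
  rw [h2, ← mul_assoc, ← ENNReal.ofReal_mul (by positivity), h1, ENNReal.ofReal_mul (by positivity),
    ENNReal.ofReal_coe_nnreal, mul_assoc]

/-- Constants for the moments of the Poisson law. -/
def momC : ℕ → ℝ≥0
  | 0 => 1
  | k + 1 => 2 ^ k * (momC k + 1)

theorem momC_succ (k : ℕ) : momC (k + 1) = 2 ^ k * (momC k + 1) := rfl

theorem one_le_momC (k : ℕ) : 1 ≤ momC k := by
  induction k with
  | zero => exact le_rfl
  | succ k ih =>
    rw [momC_succ]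
    have h1 : (1 : ℝ≥0) ≤ 2 ^ k := one_le_pow₀ (by norm_num)
    calc (1 : ℝ≥0) = 1 * 1 := by ring
      _ ≤ 2 ^ k * (momC k + 1) := mul_le_mul' h1 (ih.trans (le_add_of_nonneg_right zero_le_one))

theorem succ_pow_le (n k : ℕ) : ((n : ℝ≥0∞) + 1) ^ k ≤ 2 ^ k * ((n : ℝ≥0∞) ^ k + 1) := by
  have h : ((n + 1 : ℕ)) ^ k ≤ 2 ^ k * (n ^ k + 1) := by
    rcases Nat.eq_zero_or_pos n with h | h
    · subst h
      simp only [zero_add, one_pow]
      exact Nat.one_le_iff_ne_zero.2 (by positivity)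
    · calc (n + 1) ^ k ≤ (2 * n) ^ k := Nat.pow_le_pow_left (by omega) k
        _ = 2 ^ k * n ^ k := by rw [mul_pow]
        _ ≤ 2 ^ k * (n ^ k + 1) := Nat.mul_le_mul_left _ (Nat.le_succ _)
  exact_mod_cast h

/-- `E N^k ≤ C_k (1 + r)^k`. -/
theorem lintegral_poisson_pow_le (r : ℝ≥0) (k : ℕ) :
    ∫⁻ n, (n : ℝ≥0∞) ^ k ∂(poissonMeasure r) ≤ momC k * (1 + r) ^ k := by
  induction k with
  | zero => simp [momC]
  | succ k ih =>
    have h1 : ∫⁻ n, (n : ℝ≥0∞) ^ (k + 1) ∂(poissonMeasure r) =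
        r * ∫⁻ n, ((n : ℝ≥0∞) + 1) ^ k ∂(poissonMeasure r) := by
      simp_rw [pow_succ']
      rw [lintegral_poisson_mul r (fun n => (n : ℝ≥0∞) ^ k)]
      push_cast
      rfl
    have h2 : ∫⁻ n, ((n : ℝ≥0∞) + 1) ^ k ∂(poissonMeasure r) ≤
        2 ^ k * (∫⁻ n, (n : ℝ≥0∞) ^ k ∂(poissonMeasure r) + 1) := by
      calc ∫⁻ n, ((n : ℝ≥0∞) + 1) ^ k ∂(poissonMeasure r)
          ≤ ∫⁻ n, 2 ^ k * ((n : ℝ≥0∞) ^ k + 1) ∂(poissonMeasure r) :=
            lintegral_mono fun n => succ_pow_le n k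
        _ = 2 ^ k * (∫⁻ n, (n : ℝ≥0∞) ^ k ∂(poissonMeasure r) + 1) := by
            rw [lintegral_const_mul _ (measurable_of_countable _),
              lintegral_add_right _ measurable_const, lintegral_const, measure_univ, mul_one]
    rw [h1]
    calc (r : ℝ≥0∞) * ∫⁻ n, ((n : ℝ≥0∞) + 1) ^ k ∂(poissonMeasure r)
        ≤ (1 + r) * (2 ^ k * (momC k * (1 + r) ^ k + (1 + r) ^ k)) := by
          refine mul_le_mul' le_add_self (h2.trans ?_)
          gcongr
          exact one_le_pow₀ le_self_add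
      _ = (momC (k + 1) : ℝ≥0) * (1 + r) ^ (k + 1) := by
          rw [momC_succ]
          push_cast
          ring

/-- `E z^N = exp ((z-1) r)` for real `z ≥ 0`. -/
theorem lintegral_poisson_exp (r z : ℝ≥0) :
    ∫⁻ n, (z : ℝ≥0∞) ^ n ∂(poissonMeasure r) =
      ENNReal.ofReal (Real.exp (((z : ℝ) - 1) * r)) := by
  rw [lintegral_poisson]
  have h1 : ∀ n : ℕ, ENNReal.ofReal (Real.exp (-r) * (r : ℝ) ^ n / (n)!) * (z : ℝ≥0∞) ^ n =
      ENNReal.ofReal (Real.exp (-r) * (((z * r : ℝ≥0) : ℝ) ^ n / (n)!)) := by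
    intro n
    rw [← ENNReal.ofReal_coe_nnreal, ← ENNReal.ofReal_pow (NNReal.coe_nonneg z),
      ← ENNReal.ofReal_mul (by positivity)]
    congr 1
    push_cast
    ring
  simp_rw [h1]
  rw [← ENNReal.ofReal_tsum_of_nonneg (fun n => by positivity)]
  · rw [tsum_mul_left]
    have h2 := (NormedSpace.expSeries_div_hasSum_exp (((z * r : ℝ≥0) : ℝ))).tsum_eq
    rw [← Real.exp_eq_exp_ℝ] at h2
    rw [h2, ← Real.exp_add]
    congr 2
    push_cast
    ring
  · exact (Real.summable_pow_div_factorial _).mul_left _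

/-! ### counts -/

/-- The number of points over `A`. -/
noncomputable def num (S : Set Pt) (A : Set ℂ) : ℕ := (S ∩ A ×ˢ univ).ncard

theorem bdd_prod {A : Set ℂ} (hA : Bornology.IsBounded A) : Bdd (A ×ˢ (univ : Set Bool)) := by
  obtain ⟨r, hr⟩ := hA.subset_ball 0
  exact ⟨r, prod_mono hr subset_rfl⟩

theorem bddset_of_prod {A : Set ℂ} (hA : Bdd (A ×ˢ (univ : Set Bool))) :
    Bornology.IsBounded A := by
  obtain ⟨r, hr⟩ := hA
  exact isBounded_ball.subset fun z hz => (hr (show (z, true) ∈ A ×ˢ univ from ⟨hz, mem_univ _⟩)).1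

theorem measSet_prod {A : Set ℂ} (hA : MeasurableSet A) :
    MeasurableSet (A ×ˢ (univ : Set Bool)) := hA.prod MeasurableSet.univ

variable {Ω : Type*} [MeasurableSpace Ω] {P : Measure Ω} {S : Ω → Set Pt} {lam : ℝ≥0}

theorem finite_over (h : IsColouredPoisson P S lam) (ω : Ω) {A : Set ℂ}
    (hA : Bornology.IsBounded A) : (S ω ∩ A ×ˢ univ).Finite :=
  h.finite_inter ω (bdd_prod hA)

theorem pts_inter (T : Set Pt) (A : Set ℂ) : pts T ∩ A = Prod.fst '' (T ∩ A ×ˢ univ) := by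
  ext z
  constructor
  · rintro ⟨⟨y, hy, rfl⟩, hz⟩
    exact ⟨y, ⟨hy, hz, mem_univ _⟩, rfl⟩
  · rintro ⟨y, ⟨hy, hz, -⟩, rfl⟩
    exact ⟨⟨y, hy, rfl⟩, hz⟩

theorem finite_pts (h : IsColouredPoisson P S lam) (ω : Ω) {A : Set ℂ}
    (hA : Bornology.IsBounded A) : (pts (S ω) ∩ A).Finite := by
  rw [pts_inter]
  exact (finite_over h ω hA).image _

theorem injOn_fst {T : Set Pt} (h1 : ∀ z, ¬ ((z, true) ∈ T ∧ (z, false) ∈ T)) :
    InjOn Prod.fst T := by
  rintro ⟨z, c⟩ hz ⟨z', c'⟩ hz' h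
  simp only at h
  subst h
  cases c <;> cases c' <;> simp_all

/-- `num` counts the points (positions) of the process. -/
theorem ncard_pts (h : IsColouredPoisson P S lam) (ω : Ω) (A : Set ℂ) :
    (pts (S ω) ∩ A).ncard = num (S ω) A := by
  rw [pts_inter, num]
  exact ((injOn_fst (h.oneColour ω)).mono inter_subset_left).ncard_image

theorem num_mono (h : IsColouredPoisson P S lam) (ω : Ω) {A B : Set ℂ} (hAB : A ⊆ B)
    (hB : Bornology.IsBounded B) : num (S ω) A ≤ num (S ω) B :=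
  Set.ncard_le_ncard (inter_subset_inter_right _ (prod_mono hAB subset_rfl)) (finite_over h ω hB)

theorem measurable_num (h : IsColouredPoisson P S lam) {A : Set ℂ} (hA : MeasurableSet A)
    (hb : Bornology.IsBounded A) : Measurable fun ω => num (S ω) A :=
  h.meas _ (measSet_prod hA) (bdd_prod hb)

theorem measurable_num' (h : IsColouredPoisson P S lam) {A : Set ℂ} (hA : MeasurableSet A)
    (hb : Bornology.IsBounded A) : Measurable fun ω => (num (S ω) A : ℝ≥0∞) :=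
  (measurable_of_countable (fun n : ℕ => (n : ℝ≥0∞))).comp (measurable_num h hA hb)

/-- The mean number of points over `A`. -/
noncomputable def mu (lam : ℝ≥0) (A : Set ℂ) : ℝ≥0 := lam * (volume A).toNNReal

theorem coe_mu {A : Set ℂ} (hb : Bornology.IsBounded A) :
    (mu lam A : ℝ≥0∞) = lam * volume A := by
  rw [mu, ENNReal.coe_mul, ENNReal.coe_toNNReal hb.measure_lt_top.ne]

theorem map_num (h : IsColouredPoisson P S lam) {A : Set ℂ} (hA : MeasurableSet A)
    (hb : Bornology.IsBounded A) :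
    P.map (fun ω => num (S ω) A) = poissonMeasure (mu lam A) := by
  have := h.law _ (measSet_prod hA) (bdd_prod hb)
  rw [KP2.inten_prod_univ, ENNReal.toNNReal_mul, ENNReal.toNNReal_coe] at this
  exact this

theorem lintegral_num (h : IsColouredPoisson P S lam) {A : Set ℂ} (hA : MeasurableSet A)
    (hb : Bornology.IsBounded A) (f : ℕ → ℝ≥0∞) :
    ∫⁻ ω, f (num (S ω) A) ∂P = ∫⁻ n, f n ∂(poissonMeasure (mu lam A)) := by
  rw [← map_num h hA hb, lintegral_map (measurable_of_countable _) (measurable_num h hA hb)]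

theorem lintegral_num_pow_le (h : IsColouredPoisson P S lam) {A : Set ℂ} (hA : MeasurableSet A)
    (hb : Bornology.IsBounded A) (k : ℕ) :
    ∫⁻ ω, (num (S ω) A : ℝ≥0∞) ^ k ∂P ≤ momC k * (1 + mu lam A) ^ k := by
  rw [lintegral_num h hA hb (fun n => (n : ℝ≥0∞) ^ k)]
  exact lintegral_poisson_pow_le _ k

/-- The mean number of points over `A`. -/
theorem lintegral_num_eq (h : IsColouredPoisson P S lam) {A : Set ℂ} (hA : MeasurableSet A)
    (hb : Bornology.IsBounded A) :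
    ∫⁻ ω, (num (S ω) A : ℝ≥0∞) ∂P = mu lam A := by
  rw [lintegral_num h hA hb (fun n => (n : ℝ≥0∞))]
  have := lintegral_poisson_mul (mu lam A) (fun _ => 1)
  simpa using this

/-- The second moment of the number of points. -/
theorem lintegral_num_sq (h : IsColouredPoisson P S lam) {A : Set ℂ} (hA : MeasurableSet A)
    (hb : Bornology.IsBounded A) :
    ∫⁻ ω, (num (S ω) A : ℝ≥0∞) ^ 2 ∂P = mu lam A * (mu lam A + 1) := by
  rw [lintegral_num h hA hb (fun n => (n : ℝ≥0∞) ^ 2)]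
  have h1 := lintegral_poisson_mul (mu lam A) (fun n => (n : ℝ≥0∞))
  have h2 := lintegral_poisson_mul (mu lam A) (fun _ => 1)
  simp only [mul_one, lintegral_const, measure_univ] at h2
  simp_rw [pow_two]
  rw [h1]
  push_cast
  rw [lintegral_add_right _ measurable_const, h2]
  simp

/-- The probability that there is no point over `A`. -/
theorem prob_num_zero (h : IsColouredPoisson P S lam) {A : Set ℂ} (hA : MeasurableSet A)
    (hb : Bornology.IsBounded A) :
    P {ω | num (S ω) A = 0} = ENNReal.ofReal (Real.exp (-(mu lam A))) := by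
  have h1 : P {ω | num (S ω) A = 0} = P.map (fun ω => num (S ω) A) {0} := by
    rw [Measure.map_apply (measurable_num h hA hb) (MeasurableSet.singleton 0)]
    rfl
  rw [h1, map_num h hA hb, poissonMeasure_singleton]
  simp

theorem num_eq_zero_iff (h : IsColouredPoisson P S lam) (ω : Ω) {A : Set ℂ}
    (hb : Bornology.IsBounded A) : num (S ω) A = 0 ↔ pts (S ω) ∩ A = ∅ := by
  rw [← ncard_pts h, Set.ncard_eq_zero (finite_pts h ω hb)]

theorem measurableSet_noPts (h : IsColouredPoisson P S lam) {A : Set ℂ} (hA : MeasurableSet A)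
    (hb : Bornology.IsBounded A) : MeasurableSet {ω | pts (S ω) ∩ A = ∅} := by
  have : {ω | pts (S ω) ∩ A = ∅} = (fun ω => num (S ω) A) ⁻¹' {0} := by
    ext ω
    rw [mem_preimage, mem_singleton_iff, num_eq_zero_iff h ω hb]
    rfl
  rw [this]
  exact measurable_num h hA hb (MeasurableSet.singleton 0)

theorem prob_noPts (h : IsColouredPoisson P S lam) {A : Set ℂ} (hA : MeasurableSet A)
    (hb : Bornology.IsBounded A) :
    P {ω | pts (S ω) ∩ A = ∅} = ENNReal.ofReal (Real.exp (-(mu lam A))) := by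
  rw [← prob_num_zero h hA hb]
  congr 1
  ext ω
  exact (num_eq_zero_iff h ω hb).symm

/-- Cauchy–Schwarz: a moment of a count on a void event. -/
theorem lintegral_num_pow_void_le (h : IsColouredPoisson P S lam)
    {A B : Set ℂ} (hA : MeasurableSet A) (hAb : Bornology.IsBounded A) (hB : MeasurableSet B)
    (hBb : Bornology.IsBounded B) (k : ℕ) :
    ∫⁻ ω in {ω | pts (S ω) ∩ B = ∅}, (num (S ω) A : ℝ≥0∞) ^ k ∂P ≤
      momC (2 * k) * (1 + mu lam A) ^ k *
        ENNReal.ofReal (Real.exp (-(mu lam B) / 2)) := by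
  set E : Set Ω := {ω | pts (S ω) ∩ B = ∅} with hE
  have hEm : MeasurableSet E := measurableSet_noPts h hB hBb
  have h1 : ∫⁻ ω in E, (num (S ω) A : ℝ≥0∞) ^ k ∂P =
      ∫⁻ ω, ((fun ω => (num (S ω) A : ℝ≥0∞) ^ k) * E.indicator (1 : Ω → ℝ≥0∞)) ω ∂P := by
    rw [← lintegral_indicator hEm]
    refine lintegral_congr fun ω => ?_
    by_cases hω : ω ∈ E <;> simp [hω]
  rw [h1]
  have h2 := ENNReal.lintegral_mul_le_Lp_mul_Lq P Real.HolderConjugate.two_two
    (f := fun ω => (num (S ω) A : ℝ≥0∞) ^ k) (g := E.indicator (1 : Ω → ℝ≥0∞))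
    ((measurable_num' h hA hAb).pow_const k).aemeasurable
    (measurable_one.indicator hEm).aemeasurable
  refine h2.trans ?_
  have h3 : ∫⁻ ω, ((num (S ω) A : ℝ≥0∞) ^ k) ^ (2 : ℝ) ∂P ≤
      momC (2 * k) * ((1 + mu lam A) ^ k) ^ (2 : ℝ) := by
    have h4 := lintegral_num_pow_le h hA hAb (2 * k)
    have h5 : ∀ x : ℝ≥0∞, (x ^ k) ^ (2 : ℝ) = x ^ (2 * k) := by
      intro x
      rw [show (2 : ℝ) = ((2 : ℕ) : ℝ) by norm_num, ENNReal.rpow_natCast, ← pow_mul, mul_comm]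
    simp_rw [h5]
    exact h4
  have h6 : ∫⁻ ω, (E.indicator (1 : Ω → ℝ≥0∞) ω) ^ (2 : ℝ) ∂P =
      ENNReal.ofReal (Real.exp (-(mu lam B))) := by
    rw [← prob_noPts h hB hBb]
    have : ∀ ω, (E.indicator (1 : Ω → ℝ≥0∞) ω) ^ (2 : ℝ) = E.indicator 1 ω := by
      intro ω
      by_cases hω : ω ∈ E <;> simp [hω]
    simp_rw [this]
    rw [lintegral_indicator_one hEm]
  have h7 : (momC (2 * k) : ℝ≥0∞) ^ (1 / 2 : ℝ) ≤ momC (2 * k) := by
    have : (1 : ℝ≥0∞) ≤ momC (2 * k) := by exact_mod_cast one_le_momC _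
    calc (momC (2 * k) : ℝ≥0∞) ^ (1 / 2 : ℝ) ≤ (momC (2 * k) : ℝ≥0∞) ^ (1 : ℝ) :=
          ENNReal.rpow_le_rpow_of_exponent_le this (by norm_num)
      _ = momC (2 * k) := ENNReal.rpow_one _
  have h8 : (ENNReal.ofReal (Real.exp (-(mu lam B)))) ^ (1 / 2 : ℝ) =
      ENNReal.ofReal (Real.exp (-(mu lam B) / 2)) := by
    rw [ENNReal.ofReal_rpow_of_pos (Real.exp_pos _), ← Real.exp_mul]
    congr 2
    ring
  rw [h6, h8]
  gcongr
  calc (∫⁻ ω, ((num (S ω) A : ℝ≥0∞) ^ k) ^ (2 : ℝ) ∂P) ^ (1 / 2 : ℝ)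
      ≤ (momC (2 * k) * ((1 + mu lam A) ^ k) ^ (2 : ℝ)) ^ (1 / 2 : ℝ) := by gcongr
    _ = (momC (2 * k) : ℝ≥0∞) ^ (1 / 2 : ℝ) * (1 + mu lam A) ^ k := by
        rw [ENNReal.mul_rpow_of_nonneg _ _ (by norm_num), ← ENNReal.rpow_mul]
        norm_num
    _ ≤ momC (2 * k) * (1 + mu lam A) ^ k := by gcongr

end PG
end P148
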