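import Vale.Agent.P148.R2.H169.PGProb1

/-!
# P148, module PG, part 2: grid squares, no large holes
-/

open MeasureTheory Set Metric Topology Filter ProbabilityTheory
open scoped ENNReal NNReal Nat

namespace P148
namespace PG

/-! ### grid squares -/

/-- The half-open grid square of side `s` with index `i`. -/
def gsq (s : ℝ) (i : ℤ × ℤ) : Set ℂ :=
  {z | z.re ∈ Ico (i.1 * s) ((i.1 + 1) * s) ∧ z.im ∈ Ico (i.2 * s) ((i.2 + 1) * s)}

/-- The index of the grid square of side `s` containing `z`. -/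
noncomputable def gidx (s : ℝ) (z : ℂ) : ℤ × ℤ := (⌊z.re / s⌋, ⌊z.im / s⌋)

theorem measurableSet_gsq (s : ℝ) (i : ℤ × ℤ) : MeasurableSet (gsq s i) :=
  (Complex.measurable_re measurableSet_Ico).inter (Complex.measurable_im measurableSet_Ico)

theorem mem_gsq {s : ℝ} (hs : 0 < s) {z : ℂ} {i : ℤ × ℤ} : z ∈ gsq s i ↔ gidx s z = i := by
  have key : ∀ (x : ℝ) (m : ℤ), x ∈ Ico (m * s) ((m + 1) * s) ↔ ⌊x / s⌋ = m := by
    intro x m
    rw [Int.floor_eq_iff, le_div_iff₀ hs, div_lt_iff₀ hs]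
    exact Iff.rfl
  constructor
  · rintro ⟨h1, h2⟩
    exact Prod.ext ((key _ _).1 h1) ((key _ _).1 h2)
  · intro h
    subst h
    exact ⟨(key _ _).2 rfl, (key _ _).2 rfl⟩

theorem self_mem_gsq {s : ℝ} (hs : 0 < s) (z : ℂ) : z ∈ gsq s (gidx s z) := (mem_gsq hs).2 rfl

theorem disjoint_gsq {s : ℝ} (hs : 0 < s) {i j : ℤ × ℤ} (hij : i ≠ j) :
    Disjoint (gsq s i) (gsq s j) := by
  rw [Set.disjoint_left]
  intro z hz hz'
  exact hij (((mem_gsq hs).1 hz).symm.trans ((mem_gsq hs).1 hz'))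

theorem volume_gsq {s : ℝ} (hs : 0 ≤ s) (i : ℤ × ℤ) :
    volume (gsq s i) = ENNReal.ofReal (s ^ 2) := by
  have h1 : gsq s i = Complex.measurableEquivRealProd ⁻¹'
      (Ico (i.1 * s) ((i.1 + 1) * s) ×ˢ Ico (i.2 * s) ((i.2 + 1) * s)) := rfl
  rw [h1, Complex.volume_preserving_equiv_real_prod.measure_preimage
    (measurableSet_Ico.prod measurableSet_Ico).nullMeasurableSet, Measure.volume_eq_prod,
    Measure.prod_prod, Real.volume_Ico, Real.volume_Ico, ← ENNReal.ofReal_mul (by nlinarith)]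
  congr 1
  ring

theorem dist_lt_of_gsq {s : ℝ} {i : ℤ × ℤ} {z w : ℂ} (hz : z ∈ gsq s i) (hw : w ∈ gsq s i) :
    dist z w < 2 * s := by
  obtain ⟨⟨h1, h2⟩, h3, h4⟩ := hz
  obtain ⟨⟨h5, h6⟩, h7, h8⟩ := hw
  rw [Complex.dist_eq]
  refine (Complex.norm_le_abs_re_add_abs_im _).trans_lt ?_
  rw [Complex.sub_re, Complex.sub_im]
  have a1 : |z.re - w.re| < s := by rw [abs_lt]; constructor <;> nlinarith
  have a2 : |z.im - w.im| < s := by rw [abs_lt]; constructor <;> nlinarith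
  linarith

theorem isBounded_gsq (s : ℝ) (i : ℤ × ℤ) : Bornology.IsBounded (gsq s i) := by
  rw [Metric.isBounded_iff]
  exact ⟨2 * s, fun z hz w hw => (dist_lt_of_gsq hz hw).le⟩

/-- The indices of the grid squares which can meet the closed ball. -/
noncomputable def gix (s : ℝ) (w : ℂ) (R : ℝ) : Finset (ℤ × ℤ) :=
  Finset.Icc ⌊(w.re - R) / s⌋ ⌊(w.re + R) / s⌋ ×ˢ Finset.Icc ⌊(w.im - R) / s⌋ ⌊(w.im + R) / s⌋

theorem gidx_mem_gix {s : ℝ} (hs : 0 < s) {w z : ℂ} {R : ℝ} (hz : z ∈ closedBall w R) :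
    gidx s z ∈ gix s w R := by
  rw [mem_closedBall, Complex.dist_eq] at hz
  have h1 := (Complex.abs_re_le_norm (z - w)).trans hz
  have h2 := (Complex.abs_im_le_norm (z - w)).trans hz
  rw [Complex.sub_re, abs_le] at h1
  rw [Complex.sub_im, abs_le] at h2
  rw [gix, Finset.mem_product, Finset.mem_Icc, Finset.mem_Icc]
  refine ⟨⟨?_, ?_⟩, ?_, ?_⟩ <;>
  · apply Int.floor_le_floor
    apply div_le_div_of_nonneg_right _ hs.le
    linarith

theorem card_gix_le {s : ℝ} (hs : 0 < s) (w : ℂ) {R : ℝ} (hR : 0 ≤ R) :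
    ((gix s w R).card : ℝ) ≤ (2 * R / s + 2) ^ 2 := by
  have key : ∀ x : ℝ, ((Finset.Icc ⌊(x - R) / s⌋ ⌊(x + R) / s⌋).card : ℝ) ≤ 2 * R / s + 2 := by
    intro x
    rw [Int.card_Icc]
    have h1 : ⌊(x - R) / s⌋ ≤ ⌊(x + R) / s⌋ := by
      apply Int.floor_le_floor
      apply div_le_div_of_nonneg_right _ hs.le
      linarith
    have h2 : (((⌊(x + R) / s⌋ + 1 - ⌊(x - R) / s⌋).toNat : ℤ) : ℝ) =
        ⌊(x + R) / s⌋ + 1 - ⌊(x - R) / s⌋ := by
      rw [Int.toNat_of_nonneg (by omega)]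
      push_cast
      ring
    have h3 : ((⌊(x + R) / s⌋ + 1 - ⌊(x - R) / s⌋).toNat : ℝ) =
        ⌊(x + R) / s⌋ + 1 - ⌊(x - R) / s⌋ := by exact_mod_cast h2
    rw [h3]
    have h4 := Int.floor_le ((x + R) / s)
    have h5 := Int.lt_floor_add_one ((x - R) / s)
    have h6 : (x + R) / s - (x - R) / s = 2 * R / s := by ring
    linarith
  rw [gix, Finset.card_product, Nat.cast_mul, pow_two]
  exact mul_le_mul (key _) (key _) (Nat.cast_nonneg _) (by positivity)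

theorem closedBall_subset_gsq {s : ℝ} (hs : 0 < s) (w : ℂ) (R : ℝ) :
    closedBall w R ⊆ ⋃ i ∈ gix s w R, gsq s i := fun z hz =>
  mem_iUnion₂.2 ⟨gidx s z, gidx_mem_gix hs hz, self_mem_gsq hs z⟩

/-! ### holes -/

/-- There is an open disc of radius `r` with centre in `closedBall w R` and without points. -/
def Hole (C : Set ℂ) (w : ℂ) (R r : ℝ) : Prop := ∃ z ∈ closedBall w R, Disjoint (ball z r) C

/-- A measurable event containing `Hole`. -/
def holeEv {Ω : Type*} (S : Ω → Set Pt) (w : ℂ) (R r : ℝ) : Set Ω :=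
  ⋃ i ∈ gix (r / 2) w R, {ω | pts (S ω) ∩ gsq (r / 2) i = ∅}

theorem hole_subset {Ω : Type*} (S : Ω → Set Pt) (w : ℂ) (R : ℝ) {r : ℝ} (hr : 0 < r) :
    {ω | Hole (pts (S ω)) w R r} ⊆ holeEv S w R r := by
  rintro ω ⟨z, hz, hd⟩
  refine mem_iUnion₂.2 ⟨gidx (r / 2) z, gidx_mem_gix (by positivity) hz, ?_⟩
  rw [mem_ofPred_eq, Set.eq_empty_iff_forall_notMem]
  rintro y ⟨hy, hy'⟩
  refine Set.disjoint_left.1 hd ?_ hy
  rw [mem_ball]
  have := dist_lt_of_gsq hy' (self_mem_gsq (s := r / 2) (by positivity) z)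
  linarith

variable {Ω : Type*} [MeasurableSpace Ω] {P : Measure Ω} {S : Ω → Set Pt} {lam : ℝ≥0}

theorem measurableSet_holeEv (h : IsColouredPoisson P S lam) (w : ℂ) (R r : ℝ) :
    MeasurableSet (holeEv S w R r) :=
  Finset.measurableSet_biUnion _ fun i _ =>
    measurableSet_noPts h (measurableSet_gsq _ i) (isBounded_gsq _ i)

theorem mu_gsq {s : ℝ} (hs : 0 ≤ s) (i : ℤ × ℤ) : (mu lam (gsq s i) : ℝ) = lam * s ^ 2 := by
  rw [mu, volume_gsq hs]
  push_cast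
  rw [ENNReal.toReal_ofReal (by positivity)]

/-- **No large holes.** -/
theorem prob_holeEv_le (h : IsColouredPoisson P S lam) (w : ℂ) {R r : ℝ} (hR : 0 ≤ R)
    (hr : 0 < r) :
    P (holeEv S w R r) ≤
      ENNReal.ofReal ((4 * R / r + 2) ^ 2 * Real.exp (-(lam * r ^ 2 / 4))) := by
  refine (measure_biUnion_finset_le _ _).trans ?_
  have h1 : ∀ i ∈ gix (r / 2) w R, P {ω | pts (S ω) ∩ gsq (r / 2) i = ∅} =
      ENNReal.ofReal (Real.exp (-(lam * r ^ 2 / 4))) := by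
    intro i _
    rw [prob_noPts h (measurableSet_gsq _ i) (isBounded_gsq _ i), mu_gsq (by positivity)]
    congr 3
    ring
  rw [Finset.sum_congr rfl h1, Finset.sum_const, nsmul_eq_mul, ← ENNReal.ofReal_natCast,
    ← ENNReal.ofReal_mul (Nat.cast_nonneg _)]
  apply ENNReal.ofReal_le_ofReal
  refine mul_le_mul_of_nonneg_right ?_ (Real.exp_pos _).le
  refine (card_gix_le (by positivity) w hR).trans (le_of_eq ?_)
  congr 2
  field_simp
  ring

/-- **No large holes**, outer measure form. -/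
theorem prob_hole_le (h : IsColouredPoisson P S lam) (w : ℂ) {R r : ℝ} (hR : 0 ≤ R)
    (hr : 0 < r) :
    P {ω | Hole (pts (S ω)) w R r} ≤
      ENNReal.ofReal ((4 * R / r + 2) ^ 2 * Real.exp (-(lam * r ^ 2 / 4))) :=
  (measure_mono (hole_subset S w R hr)).trans (prob_holeEv_le h w hR hr)

end PG
end P148
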